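import Vale.Agent.P173.MathlibUsed

/-! Presentations, their Cayley complexes and asphericity. -/

namespace Vale.Agent.P173

universe u

/-- A presentation `⟨X | R⟩` of the group `Γ`: a family `φ` of elements of `Γ` indexed by `X` and a
family of words (relators) `rel r`, such that `φ` generates `Γ` and the kernel of
`FreeGroup X → Γ` is the normal closure of the relators. -/
structure Pres (Γ : Type) [Group Γ] where
  X : Type u
  R : Type u
  φ : X → Γ
  rel : R → List (X × Bool)
  surj : Function.Surjective (FreeGroup.lift φ)
  ker : (FreeGroup.lift φ).ker = Subgroup.normalClosure (Set.range fun r => FreeGroup.mk (rel r))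

section chain

variable {Γ : Type} [Group Γ] {X : Type u}

/-- The cellular 1-chain of the path in the Cayley graph of `Γ` with respect to `φ` which starts at
the vertex `h` and reads the given word. The Cayley graph has vertex set `Γ` and, for every
`x : X` and `h : Γ`, an oriented edge `(x, h)` from `h` to `h * φ x`. -/
noncomputable def pathChain (φ : X → Γ) : List (X × Bool) → Γ → (X × Γ →₀ ℤ)
  | [], _ => 0
  | (x, true) :: l, h => Finsupp.single (x, h) 1 + pathChain φ l (h * φ x)
  | (x, false) :: l, h => - Finsupp.single (x, h * (φ x)⁻¹) 1 + pathChain φ l (h * (φ x)⁻¹)

end chain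

/-- The cellular boundary map `C₂ → C₁` of the universal cover (the Cayley complex) of the
presentation complex: the 2-cell `(r, h)` is attached along the path that starts at `h` and reads
the word `rel r`. -/
noncomputable def Pres.boundary {Γ : Type} [Group Γ] (P : Pres.{u} Γ) :
    (P.R × Γ →₀ ℤ) →ₗ[ℤ] (P.X × Γ →₀ ℤ) :=
  Finsupp.linearCombination ℤ fun q => pathChain P.φ (P.rel q.1) q.2

/-- A presentation is aspherical if the second homology group of the universal cover of its
presentation complex vanishes; equivalently (Hurewicz) the universal cover is contractible, that
is, the presentation complex is a `K(Γ, 1)`. -/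
def Pres.Aspherical {Γ : Type} [Group Γ] (P : Pres.{u} Γ) : Prop :=
  Function.Injective P.boundary

end Vale.Agent.P173
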