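import Vale.Agent.P173.MathlibUsed

/-! Classifying spaces and geometric dimension. -/

namespace Vale.Agent.P173

universe u v

/-- `X` is a classifying space (a `K(Γ, 1)`) as far as homotopy is concerned: it is path connected,
its fundamental group is isomorphic to `Γ`, and it has a contractible covering space (which is then
its universal cover). -/
structure IsClassifying (Γ : Type) [Group Γ] (X : Type u) [TopologicalSpace X] : Prop where
  pathConnected : PathConnectedSpace X
  fundamentalGroup : ∀ x : X, Nonempty (FundamentalGroup X x ≃* Γ)
  universalCover : ∃ (E : Type v) (_ : TopologicalSpace E) (p : E → X),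
    IsCoveringMap p ∧ ContractibleSpace E

/-- The geometric dimension of `Γ` is at most `n`: there is a classifying space of `Γ` which is a
CW complex (Mathlib's `Topology.CWComplex`, the whole Hausdorff space `X`) all of whose cells have
dimension at most `n`. -/
def GdLE (Γ : Type) [Group Γ] (n : ℕ) : Prop :=
  ∃ (X : Type u) (_ : TopologicalSpace X) (_ : T2Space X)
    (_ : Topology.CWComplex (Set.univ : Set X)),
    (∀ m > n, IsEmpty (Topology.RelCWComplex.cell (Set.univ : Set X) m)) ∧
      IsClassifying.{u, v} Γ X

end Vale.Agent.P173
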