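import Mathlib.Algebra.Group.Action.Sigma
import Mathlib.Algebra.Homology.ShortComplex.ModuleCat
import Mathlib.Algebra.Order.Ring.Star
import Mathlib.Algebra.Order.Star.Real
import Mathlib.Analysis.CStarAlgebra.Classes
import Mathlib.Analysis.Complex.CoveringMap
import Mathlib.CategoryTheory.Abelian.Projective.Dimension
import Mathlib.CategoryTheory.Abelian.Projective.Ext
import Mathlib.CategoryTheory.Monoidal.Hopf_
import Mathlib.Combinatorics.Quiver.ReflQuiver
import Mathlib.Data.Int.Star
import Mathlib.GroupTheory.FreeGroup.Reduce
import Mathlib.GroupTheory.PresentedGroup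
import Mathlib.GroupTheory.SpecificGroups.Dihedral
import Mathlib.MeasureTheory.Measure.Lebesgue.Basic
import Mathlib.Order.CompletePartialOrder
import Mathlib.RepresentationTheory.Homological.Resolution
import Mathlib.RingTheory.DedekindDomain.SInteger
import Mathlib.RingTheory.Etale.Weakly
import Mathlib.RingTheory.Flat.TorsionFree
import Mathlib.RingTheory.SimpleRing.Principal
import Mathlib.RingTheory.TotallySplit
import Mathlib.Tactic
import Mathlib.Topology.CWComplex.Classical.Basic
import Mathlib.Topology.Homotopy.Lifting

/-! The part of Mathlib that the development of this folder uses. -/
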